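import Vale.Agent.P119.Real.Meas
import Vale.Agent.P119.Bdl.B2

/-!
# P119: configuration space, grand-canonical law, GNZ identity (`helper909`)

* `Cfg n` measurability: `g : Finset Ph → _` is measurable iff `Z ↦ g (image Z)` is measurable on
  every `Fin N → Ph`;
* `gsum f₀ ε g`: the unnormalised grand-canonical sum; `gc f₀ ε`: the grand-canonical law, a
  probability measure on `Finset Ph`;
* `gnz`: the exact GNZ/Mecke identity.
-/

open MeasureTheory Filter Topology Set
open scoped NNReal ENNReal

namespace Vale.Agent.P119.Gas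

open RW

/-- The configuration with the entries of `Z`. -/
noncomputable def im {N : ℕ} (Z : Fin N → Ph) : Finset Ph := Finset.univ.image Z

@[simp] theorem mem_im {N : ℕ} {Z : Fin N → Ph} {z : Ph} : z ∈ im Z ↔ ∃ i, Z i = z := by
  simp [im]

/-- The σ-algebra on configurations: a set is measurable iff its preimages under all `im` are. -/
noncomputable instance cfgMeasurableSpace : MeasurableSpace (Finset Ph) :=
  ⨅ N : ℕ, MeasurableSpace.map (fun Z : Fin N → Ph => im Z) inferInstance

theorem measurableSet_cfg {A : Set (Finset Ph)} :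
    MeasurableSet A ↔ ∀ N : ℕ, MeasurableSet {Z : Fin N → Ph | im Z ∈ A} := by
  rw [cfgMeasurableSpace, MeasurableSpace.measurableSet_iInf]
  rfl

theorem measurable_im {N : ℕ} : Measurable (im : (Fin N → Ph) → Finset Ph) := by
  intro A hA
  exact measurableSet_cfg.1 hA N

theorem measurable_cfg {β : Type*} [MeasurableSpace β] {g : Finset Ph → β} :
    Measurable g ↔ ∀ N : ℕ, Measurable fun Z : Fin N → Ph => g (im Z) := by
  refine ⟨fun h N => h.comp measurable_im, fun h A hA => measurableSet_cfg.2 fun N => h N hA⟩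

/-- Joint measurability in a finite tuple of parameters and the configuration. -/
def JMeas {β α : Type*} [MeasurableSpace α] [MeasurableSpace β] (F : α → Finset Ph → β) : Prop :=
  ∀ M : ℕ, Measurable fun p : α × (Fin M → Ph) => F p.1 (im p.2)

theorem JMeas.right {β α : Type*} [MeasurableSpace α] [MeasurableSpace β]
    {F : α → Finset Ph → β} (h : JMeas F) (a : α) : Measurable (F a) :=
  measurable_cfg.2 fun M => (h M).comp (measurable_const.prodMk measurable_id)

theorem JMeas.lintegral {α : Type*} [MeasurableSpace α] {F : α → Finset Ph → ℝ≥0∞}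
    (h : JMeas F) (ν : Measure α) [SFinite ν] : Measurable fun w => ∫⁻ a, F a w ∂ν :=
  measurable_cfg.2 fun M => (h M).lintegral_prod_left'

variable (f₀ : Ph → ℝ) (ε : ℝ)

/-- The unnormalised grand-canonical sum. -/
noncomputable def gsum (g : Finset Ph → ℝ≥0∞) : ℝ≥0∞ :=
  ∑' N : ℕ, ENNReal.ofReal (mu ε ^ N / (N.factorial : ℝ)) *
    ∫⁻ Z in excl ε N, g (im Z) ∂(Measure.pi fun _ : Fin N => law f₀)

/-- The unnormalised grand-canonical measure. -/
noncomputable def gmeas : Measure (Finset Ph) :=
  Measure.sum fun N : ℕ => ENNReal.ofReal (mu ε ^ N / (N.factorial : ℝ)) •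
    ((Measure.pi fun _ : Fin N => law f₀).restrict (excl ε N)).map im

theorem lintegral_gmeas {g : Finset Ph → ℝ≥0∞} (hg : Measurable g) :
    ∫⁻ w, g w ∂gmeas f₀ ε = gsum f₀ ε g := by
  unfold gmeas gsum
  rw [lintegral_sum_measure]
  refine tsum_congr fun N => ?_
  rw [lintegral_smul_measure, lintegral_map hg measurable_im, smul_eq_mul]

/-- The grand-canonical law. -/
noncomputable def gc : Measure (Finset Ph) := (gsum f₀ ε 1)⁻¹ • gmeas f₀ ε

theorem lintegral_gc {g : Finset Ph → ℝ≥0∞} (hg : Measurable g) :
    ∫⁻ w, g w ∂gc f₀ ε = (gsum f₀ ε 1)⁻¹ * gsum f₀ ε g := by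
  unfold gc
  rw [lintegral_smul_measure, lintegral_gmeas f₀ ε hg, smul_eq_mul]

section basic

variable [IsProbabilityMeasure (law f₀)]

theorem gsum_one_pos : gsum f₀ ε 1 ≠ 0 := by
  unfold gsum
  rw [Ne, ENNReal.tsum_eq_zero]
  push Not
  refine ⟨0, ?_⟩
  have h1 : excl ε 0 = univ := by
    ext Z
    simp [excl]
  rw [h1]
  simp

theorem gsum_one_ne_top : gsum f₀ ε 1 ≠ ∞ := by
  have hmu : 0 ≤ mu ε := by unfold mu; positivity
  refine ne_top_of_le_ne_top ?_ (b := ENNReal.ofReal (Real.exp (mu ε))) ?_
  · exact ENNReal.ofReal_ne_top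
  unfold gsum
  have h1 : ∀ N : ℕ, ENNReal.ofReal (mu ε ^ N / (N.factorial : ℝ)) *
      ∫⁻ Z in excl ε N, (1 : Finset Ph → ℝ≥0∞) (im Z) ∂(Measure.pi fun _ : Fin N => law f₀) ≤
      ENNReal.ofReal (mu ε ^ N / (N.factorial : ℝ)) := by
    intro N
    refine mul_le_of_le_one_right zero_le ?_
    calc ∫⁻ Z in excl ε N, (1 : Finset Ph → ℝ≥0∞) (im Z) ∂(Measure.pi fun _ : Fin N => law f₀)
        ≤ ∫⁻ Z, 1 ∂(Measure.pi fun _ : Fin N => law f₀) := by
          simp only [Pi.one_apply]
          exact setLIntegral_le_lintegral _ _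
      _ = 1 := by simp
  refine (ENNReal.tsum_le_tsum h1).trans ?_
  rw [← ENNReal.ofReal_tsum_of_nonneg (fun N => by positivity) (Real.summable_pow_div_factorial _)]
  refine ENNReal.ofReal_le_ofReal ?_
  rw [Real.exp_eq_exp_ℝ, NormedSpace.exp_eq_tsum_div]

instance isProbabilityMeasure_gc : IsProbabilityMeasure (gc f₀ ε) := by
  constructor
  have h := lintegral_gc f₀ ε (g := 1) measurable_one
  simp only [Pi.one_apply, lintegral_one] at h
  rw [h]
  exact ENNReal.inv_mul_cancel (gsum_one_pos f₀ ε) (gsum_one_ne_top f₀ ε)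

omit [IsProbabilityMeasure (law f₀)] in
/-- The law is carried by configurations in `Excl`. -/
theorem ae_excl : ∀ᵐ w ∂gc f₀ ε, Excl ε w := by
  have hm : MeasurableSet {w : Finset Ph | Excl ε w}ᶜ := by
    rw [measurableSet_cfg]
    intro N
    have : {Z : Fin N → Ph | im Z ∈ ({w : Finset Ph | Excl ε w}ᶜ : Set (Finset Ph))} =
        {Z : Fin N → Ph | ∀ i j, Z i ≠ Z j → ε < ‖(Z i).1 - (Z j).1‖}ᶜ := by
      ext Z
      rw [mem_compl_iff, mem_ofPred_eq, mem_compl_iff, mem_ofPred_eq, mem_ofPred_eq, not_iff_not]
      constructor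
      · exact fun h i j hij => h _ (mem_im.2 ⟨i, rfl⟩) _ (mem_im.2 ⟨j, rfl⟩) hij
      · intro h z hz z' hz' hne
        obtain ⟨i, rfl⟩ := mem_im.1 hz
        obtain ⟨j, rfl⟩ := mem_im.1 hz'
        exact h i j hne
    rw [this]
    refine MeasurableSet.compl ?_
    have h2 : {Z : Fin N → Ph | ∀ i j, Z i ≠ Z j → ε < ‖(Z i).1 - (Z j).1‖} =
        ⋂ i, ⋂ j, ({Z : Fin N → Ph | Z i = Z j} ∪ {Z | ε < ‖(Z i).1 - (Z j).1‖}) := by
      ext Z
      simp only [mem_ofPred_eq, mem_iInter, mem_union, ne_eq, or_iff_not_imp_left]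
    rw [h2]
    exact MeasurableSet.iInter fun i => MeasurableSet.iInter fun j =>
      (measurableSet_eq_fun (measurable_pi_apply i) (measurable_pi_apply j)).union
        (measurableSet_lt measurable_const (by fun_prop))
  rw [ae_iff]
  change gc f₀ ε {w : Finset Ph | Excl ε w}ᶜ = 0
  rw [← lintegral_indicator_one hm, lintegral_gc f₀ ε (measurable_one.indicator hm)]
  have : gsum f₀ ε ({w : Finset Ph | Excl ε w}ᶜ.indicator 1) = 0 := by
    unfold gsum
    rw [ENNReal.tsum_eq_zero]
    intro N
    refine mul_eq_zero_of_right _ ?_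
    have h3 : ∀ Z ∈ excl ε N, ({w : Finset Ph | Excl ε w}ᶜ.indicator 1 : Finset Ph → ℝ≥0∞) (im Z) =
        0 := by
      intro Z hZ
      have h4 : im Z ∉ {w : Finset Ph | Excl ε w}ᶜ := by
        rw [mem_compl_iff, not_not]
        intro z hz z' hz' hne
        obtain ⟨i, rfl⟩ := mem_im.1 hz
        obtain ⟨j, rfl⟩ := mem_im.1 hz'
        exact hZ i j (fun h => hne (by rw [h]))
      exact indicator_of_notMem h4 _
    rw [setLIntegral_congr_fun (measurableSet_excl ε N) h3]
    simp
  rw [this, mul_zero]

end basic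

/-- No point of `w` is within `ε` of the points `y`, and conversely. -/
def Compat {n : ℕ} (ε : ℝ) (y : Fin n → Ph) (w : Finset Ph) : Prop :=
  ∀ i, ∀ z ∈ w, ε < ‖(y i).1 - z.1‖

theorem measurableSet_compat {n M : ℕ} :
    MeasurableSet {p : (Fin n → Ph) × (Fin M → Ph) | Compat ε p.1 (im p.2)} := by
  have : {p : (Fin n → Ph) × (Fin M → Ph) | Compat ε p.1 (im p.2)} =
      ⋂ i, ⋂ j, {p | ε < ‖(p.1 i).1 - (p.2 j).1‖} := by
    ext p
    simp only [Compat, mem_im, forall_exists_index, forall_apply_eq_imp_iff, mem_ofPred_eq,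
      mem_iInter]
  rw [this]
  exact MeasurableSet.iInter fun i => MeasurableSet.iInter fun j =>
    measurableSet_lt measurable_const (by fun_prop)

open Classical in
/-- The GNZ identity for the unnormalised sums. -/
theorem gnz_gsum [IsProbabilityMeasure (law f₀)] (hε : 0 ≤ ε) {n : ℕ}
    {F : (Fin n → Ph) → Finset Ph → ℝ≥0∞} (hF : JMeas F) :
    ∑' N : ℕ, ENNReal.ofReal (mu ε ^ N / (N.factorial : ℝ)) *
      ∫⁻ Z in excl ε N, ∑ σ : Fin n ↪ Fin N, F (fun k => Z (σ k)) (im Z \ im fun k => Z (σ k))
        ∂(Measure.pi fun _ : Fin N => law f₀) =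
    ENNReal.ofReal (mu ε ^ n) * ∫⁻ y in excl ε n,
      gsum f₀ ε (fun w => if Compat ε y w then F y w else 0)
        ∂(Measure.pi fun _ : Fin n => law f₀) := by
  have hmu : 0 ≤ mu ε := by unfold mu; positivity
  -- joint integral
  set I : ℕ → ℝ≥0∞ := fun M => ∫⁻ y in excl ε n, ∫⁻ Z in excl ε M,
    (if Compat ε y (im Z) then F y (im Z) else 0)
      ∂(Measure.pi fun _ : Fin M => law f₀) ∂(Measure.pi fun _ : Fin n => law f₀) with hI
  have hmeasF : ∀ M, Measurable fun p : (Fin n → Ph) × (Fin M → Ph) =>
      if Compat ε p.1 (im p.2) then F p.1 (im p.2) else 0 := fun M =>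
    Measurable.ite (measurableSet_compat ε) (hF M) measurable_const
  -- each embedding contributes the same
  have key : ∀ M (σ : Fin n ↪ Fin (M + n)),
      Measurable ((excl ε (M + n)).indicator
        (fun Z => F (fun k => Z (σ k)) (im Z \ im fun k => Z (σ k)))) ∧
      ∫⁻ Z, (excl ε (M + n)).indicator
        (fun Z => F (fun k => Z (σ k)) (im Z \ im fun k => Z (σ k))) Z
        ∂(Measure.pi fun _ : Fin (M + n) => law f₀) = I M := by
    intro M σ
    -- complement enumeration
    obtain ⟨e, he⟩ : ∃ e : Fin n ⊕ Fin M ≃ Fin (M + n), ∀ k, e (Sum.inl k) = σ k := by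
      have hcard : Fintype.card {j : Fin (M + n) // j ∉ Set.range σ} = M := by
        rw [Fintype.card_subtype_compl, Fintype.card_fin]
        have : Fintype.card {x // x ∈ Set.range σ} = n := by
          have := Set.card_range_of_injective σ.injective
          rw [Fintype.card_fin] at this
          exact this
        rw [this]; omega
      let e2 : Fin M ≃ {j : Fin (M + n) // j ∉ Set.range σ} :=
        (Fintype.equivFinOfCardEq hcard).symm
      let e1 : Fin n ≃ {j : Fin (M + n) // j ∈ Set.range σ} := Equiv.ofInjective σ σ.injective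
      refine ⟨(Equiv.sumCongr e1 e2).trans (Equiv.sumCompl fun j => j ∈ Set.range σ), fun k => ?_⟩
      simp [e1, Equiv.sumCompl]
    set G : (Fin n → Ph) × (Fin M → Ph) → ℝ≥0∞ := fun p =>
      (excl ε n).indicator 1 p.1 * ((excl ε M).indicator 1 p.2 *
        (if Compat ε p.1 (im p.2) then F p.1 (im p.2) else 0)) with hG
    have hGm : Measurable G := by
      refine Measurable.mul ?_ (Measurable.mul ?_ (hmeasF M))
      · exact (measurable_one.indicator (measurableSet_excl ε n)).comp measurable_fst
      · exact (measurable_one.indicator (measurableSet_excl ε M)).comp measurable_snd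
    have h1 : (excl ε (M + n)).indicator
        (fun Z => F (fun k => Z (σ k)) (im Z \ im fun k => Z (σ k))) =
        fun Z => G (fun k => Z (e (Sum.inl k)), fun j => Z (e (Sum.inr j))) := by
      funext Z
      simp only [hG]
      by_cases hZ : Z ∈ excl ε (M + n)
      · rw [indicator_of_mem hZ]
        have hinj : Function.Injective Z := by
          intro i j hij
          by_contra hne
          have := hZ i j hne
          rw [hij, sub_self, norm_zero] at this
          linarith
        have ha : (fun k => Z (e (Sum.inl k))) ∈ excl ε n := fun i j hij =>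
          hZ _ _ fun h => hij (by simpa using e.injective h)
        have hb : (fun k => Z (e (Sum.inr k))) ∈ excl ε M := fun i j hij =>
          hZ _ _ fun h => hij (by simpa using e.injective h)
        have hc : Compat ε (fun k => Z (e (Sum.inl k))) (im fun j => Z (e (Sum.inr j))) := by
          intro i z hz
          obtain ⟨j, rfl⟩ := mem_im.1 hz
          exact hZ _ _ fun h => by simpa using e.injective h
        have hd : (im Z \ im fun k => Z (σ k)) = im fun j => Z (e (Sum.inr j)) := by
          ext z
          simp only [Finset.mem_sdiff, mem_im, not_exists]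
          constructor
          · rintro ⟨⟨i, rfl⟩, h⟩
            obtain ⟨s, rfl⟩ := e.surjective i
            rcases s with k | j
            · exact absurd (congrArg Z (he k).symm) (h k)
            · exact ⟨j, rfl⟩
          · rintro ⟨j, rfl⟩
            refine ⟨⟨_, rfl⟩, fun k hk => ?_⟩
            rw [← he k] at hk
            simpa using e.injective (hinj hk)
        rw [indicator_of_mem ha, indicator_of_mem hb, if_pos hc, hd, Pi.one_apply, Pi.one_apply,
          one_mul, one_mul]
        simp only [he]
      · rw [indicator_of_notMem hZ]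
        symm
        by_contra hcon
        have hcon' := hcon
        apply hZ
        have ha : (fun k => Z (e (Sum.inl k))) ∈ excl ε n := by
          by_contra h
          rw [indicator_of_notMem h, zero_mul] at hcon
          exact hcon rfl
        have hb : (fun k => Z (e (Sum.inr k))) ∈ excl ε M := by
          by_contra h
          rw [indicator_of_notMem (s := excl ε M) h, zero_mul, mul_zero] at hcon
          exact hcon rfl
        have hc : Compat ε (fun k => Z (e (Sum.inl k))) (im fun j => Z (e (Sum.inr j))) := by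
          by_contra h
          rw [if_neg h, mul_zero, mul_zero] at hcon
          exact hcon rfl
        intro i j hij
        obtain ⟨s, rfl⟩ := e.surjective i
        obtain ⟨r, rfl⟩ := e.surjective j
        rcases s with k | k <;> rcases r with l | l
        · exact ha k l fun h => hij (by rw [h])
        · exact hc k _ (mem_im.2 ⟨l, rfl⟩)
        · rw [norm_sub_rev]; exact hc l _ (mem_im.2 ⟨k, rfl⟩)
        · exact hb k l fun h => hij (by rw [h])
    rw [h1]
    -- change of variables
    have h2 : (Measure.pi fun _ : Fin (M + n) => law f₀).map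
        (fun Z => ((fun k => Z (e (Sum.inl k)) : Fin n → Ph),
          (fun j => Z (e (Sum.inr j)) : Fin M → Ph))) =
        (Measure.pi fun _ : Fin n => law f₀).prod (Measure.pi fun _ : Fin M => law f₀) := by
      have h3 := map_comp_pi (ν := law f₀) (J := (e : Fin n ⊕ Fin M → Fin (M + n))) e.injective
      have h4 := (measurePreserving_sumPiEquivProdPi (X := fun _ : Fin n ⊕ Fin M => Ph)
        (fun _ : Fin n ⊕ Fin M => law f₀)).map_eq
      rw [← h3, Measure.map_map (MeasurableEquiv.measurable _) (by fun_prop)] at h4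
      exact h4
    have h5 : Measurable (fun Z : Fin (M + n) → Ph => ((fun k => Z (e (Sum.inl k)) : Fin n → Ph),
          (fun j => Z (e (Sum.inr j)) : Fin M → Ph))) := by fun_prop
    refine ⟨hGm.comp h5, ?_⟩
    rw [← lintegral_map hGm h5, h2, lintegral_prod _ hGm.aemeasurable, hI]
    simp only [hG]
    rw [← lintegral_indicator (measurableSet_excl ε n)]
    refine lintegral_congr fun y => ?_
    by_cases hy : y ∈ excl ε n
    · rw [indicator_of_mem hy, indicator_of_mem hy, Pi.one_apply]
      rw [← lintegral_indicator (measurableSet_excl ε M)]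
      refine lintegral_congr fun Z => ?_
      by_cases hZ : Z ∈ excl ε M
      · rw [indicator_of_mem hZ, indicator_of_mem hZ, Pi.one_apply, one_mul, one_mul]
      · rw [indicator_of_notMem hZ, indicator_of_notMem hZ, zero_mul, mul_zero]
    · rw [indicator_of_notMem hy, indicator_of_notMem hy]
      simp
  -- the left side
  have hL : ∀ M : ℕ, ∫⁻ Z in excl ε (M + n), ∑ σ : Fin n ↪ Fin (M + n),
      F (fun k => Z (σ k)) (im Z \ im fun k => Z (σ k))
        ∂(Measure.pi fun _ : Fin (M + n) => law f₀) =
      ((M + n).descFactorial n : ℕ) * I M := by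
    intro M
    rw [← lintegral_indicator (measurableSet_excl ε (M + n))]
    have h1 : ∀ Z : Fin (M + n) → Ph, (excl ε (M + n)).indicator (fun Z =>
        ∑ σ : Fin n ↪ Fin (M + n), F (fun k => Z (σ k)) (im Z \ im fun k => Z (σ k))) Z =
        ∑ σ : Fin n ↪ Fin (M + n), (excl ε (M + n)).indicator
        (fun Z => F (fun k => Z (σ k)) (im Z \ im fun k => Z (σ k))) Z := by
      intro Z
      by_cases hZ : Z ∈ excl ε (M + n)
      · simp only [indicator_of_mem hZ]
      · simp only [indicator_of_notMem hZ, Finset.sum_const_zero]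
    simp_rw [h1]
    rw [lintegral_finsetSum _ fun σ _ => (key M σ).1]
    simp_rw [(key M _).2]
    rw [Finset.sum_const, Finset.card_univ, Fintype.card_embedding_eq, Fintype.card_fin,
      Fintype.card_fin, nsmul_eq_mul]
  have hinj : Function.Injective fun M : ℕ => M + n := fun a b h => by simpa using h
  have hsup : Function.support (fun N : ℕ => ENNReal.ofReal (mu ε ^ N / (N.factorial : ℝ)) *
      ∫⁻ Z in excl ε N, ∑ σ : Fin n ↪ Fin N, F (fun k => Z (σ k)) (im Z \ im fun k => Z (σ k))
        ∂(Measure.pi fun _ : Fin N => law f₀)) ⊆ Set.range fun M : ℕ => M + n := by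
    intro N hN
    by_contra hcon
    apply hN
    have h1 : N < n := by
      by_contra h
      exact hcon ⟨N - n, by simp only; omega⟩
    have : IsEmpty (Fin n ↪ Fin N) := by
      rw [← Fintype.card_eq_zero_iff, Fintype.card_embedding_eq, Fintype.card_fin,
        Fintype.card_fin, Nat.descFactorial_eq_zero_iff_lt]
      exact h1
    simp
  rw [← hinj.tsum_eq hsup]
  simp_rw [hL]
  have hR : ∫⁻ y in excl ε n, gsum f₀ ε (fun w => if Compat ε y w then F y w else 0)
        ∂(Measure.pi fun _ : Fin n => law f₀) =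
      ∑' M : ℕ, ENNReal.ofReal (mu ε ^ M / (M.factorial : ℝ)) * I M := by
    unfold gsum
    rw [lintegral_tsum]
    · refine tsum_congr fun M => ?_
      rw [lintegral_const_mul']
      exact ENNReal.ofReal_ne_top
    · intro M
      refine (Measurable.const_mul ?_ _).aemeasurable
      exact (hmeasF M).lintegral_prod_right'
  rw [hR, ← ENNReal.tsum_mul_left]
  refine tsum_congr fun M => ?_
  rw [← mul_assoc, ← mul_assoc]
  congr 1
  rw [← ENNReal.ofReal_natCast, ← ENNReal.ofReal_mul (by positivity),
    ← ENNReal.ofReal_mul (by positivity)]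
  congr 1
  have h1 : ((M + n).descFactorial n : ℝ) * (M.factorial : ℝ) = ((M + n).factorial : ℝ) := by
    have h := Nat.factorial_mul_descFactorial (n := M + n) (k := n) (by omega)
    rw [Nat.add_sub_cancel] at h
    rw [mul_comm]
    exact_mod_cast h
  have h2 : ((M + n).factorial : ℝ) ≠ 0 := by positivity
  have h3 : (M.factorial : ℝ) ≠ 0 := by positivity
  rw [pow_add]
  field_simp
  rw [← h1]
  ring

end Vale.Agent.P119.Gas
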