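import Vale.Agent.P119.Gas.Config

/-!
# P119: the GNZ identity for the grand-canonical law (`helper909`)

* `measurable_cfg_of_inj`: measurability on configurations has to be checked on injective tuples;
* `tuples n w`: the injective `n`-tuples of points of `w`;
* `gnz`: `E ∑_{y ∈ tuples n w} F y (w \ y) = μ^n ∫_{excl} E[1{compatible} F y w] f₀^{⊗n}(dy)`;
* `gnz_le`: the same without the two indicators, as an upper bound.
-/

open MeasureTheory Filter Topology Set
open scoped NNReal ENNReal

namespace Vale.Agent.P119.Gas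

open RW

theorem measurableSet_inj (N : ℕ) : MeasurableSet {Z : Fin N → Ph | Function.Injective Z} := by
  have : {Z : Fin N → Ph | Function.Injective Z} = ⋂ i, ⋂ j, ⋂ _ : i ≠ j, {Z | Z i = Z j}ᶜ := by
    ext Z
    simp only [mem_ofPred_eq, mem_iInter, mem_compl_iff]
    constructor
    · intro h i j hij he
      exact hij (h he)
    · intro h i j he
      by_contra hne
      exact h i j hne he
  rw [this]
  exact MeasurableSet.iInter fun i => MeasurableSet.iInter fun j => MeasurableSet.iInter fun _ =>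
    (measurableSet_eq_fun (measurable_pi_apply i) (measurable_pi_apply j)).compl

theorem im_succAbove {N : ℕ} {Z : Fin (N + 1) → Ph} {i j : Fin (N + 1)} (hij : i ≠ j)
    (h : Z i = Z j) : im Z = im fun k => Z (i.succAbove k) := by
  ext z
  simp only [mem_im]
  constructor
  · rintro ⟨k, rfl⟩
    by_cases hk : k = i
    · obtain ⟨l, hl⟩ := Fin.exists_succAbove_eq hij.symm
      exact ⟨l, by rw [hl, hk, h]⟩
    · obtain ⟨l, hl⟩ := Fin.exists_succAbove_eq hk
      exact ⟨l, by rw [hl]⟩
  · rintro ⟨k, rfl⟩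
    exact ⟨_, rfl⟩

theorem measurableSet_cfg_of_inj {α : Type*} [MeasurableSpace α] {A : Set (α × Finset Ph)}
    (h : ∀ N : ℕ, MeasurableSet {p : α × (Fin N → Ph) | Function.Injective p.2 ∧ (p.1, im p.2) ∈ A}) :
    ∀ N : ℕ, MeasurableSet {p : α × (Fin N → Ph) | (p.1, im p.2) ∈ A} := by
  intro N
  induction N with
  | zero =>
    have := h 0
    convert this using 1
    ext p
    simp only [mem_ofPred_eq, iff_and_self]
    exact fun _ => Function.injective_of_subsingleton _
  | succ N ih =>
    have h1 : {p : α × (Fin (N + 1) → Ph) | (p.1, im p.2) ∈ A} =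
        {p | Function.Injective p.2 ∧ (p.1, im p.2) ∈ A} ∪
          ⋃ i, ⋃ j, ⋃ _ : i ≠ j, ({p | p.2 i = p.2 j} ∩
            {p | (p.1, im fun k => p.2 (i.succAbove k)) ∈ A}) := by
      ext p
      simp only [mem_ofPred_eq, mem_union, mem_iUnion, mem_inter_iff]
      constructor
      · intro hp
        by_cases hi : Function.Injective p.2
        · exact Or.inl ⟨hi, hp⟩
        · right
          obtain ⟨i, j, he, hne⟩ := Function.not_injective_iff.1 hi
          exact ⟨i, j, hne, he, by rw [← im_succAbove hne he]; exact hp⟩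
      · rintro (⟨-, hp⟩ | ⟨i, j, hne, he, hp⟩)
        · exact hp
        · rw [im_succAbove hne he]; exact hp
    rw [h1]
    refine (h (N + 1)).union (MeasurableSet.iUnion fun i => MeasurableSet.iUnion fun j =>
      MeasurableSet.iUnion fun _ => MeasurableSet.inter ?_ ?_)
    · exact measurableSet_eq_fun (by fun_prop) (by fun_prop)
    · have h2 : Measurable fun p : α × (Fin (N + 1) → Ph) =>
          ((p.1, fun k => p.2 (i.succAbove k)) : α × (Fin N → Ph)) := by fun_prop
      exact h2 ih

/-- Joint measurability has to be checked on injective tuples. -/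
theorem jmeas_of_inj {α β : Type*} [MeasurableSpace α] [MeasurableSpace β] {F : α → Finset Ph → β}
    {G : (N : ℕ) → α × (Fin N → Ph) → β} (hG : ∀ N, Measurable (G N))
    (h : ∀ N (p : α × (Fin N → Ph)), Function.Injective p.2 → F p.1 (im p.2) = G N p) :
    JMeas F := by
  intro M B hB
  have h1 := measurableSet_cfg_of_inj (A := {q : α × Finset Ph | F q.1 q.2 ∈ B}) (fun N => ?_) M
  · exact h1
  have h2 : {p : α × (Fin N → Ph) | Function.Injective p.2 ∧
      (p.1, im p.2) ∈ {q : α × Finset Ph | F q.1 q.2 ∈ B}} =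
      {p | Function.Injective p.2} ∩ (G N) ⁻¹' B := by
    ext p
    simp only [mem_ofPred_eq, mem_inter_iff, mem_preimage]
    constructor
    · rintro ⟨hi, hp⟩
      exact ⟨hi, by rw [← h N p hi]; exact hp⟩
    · rintro ⟨hi, hp⟩
      exact ⟨hi, by rw [h N p hi]; exact hp⟩
  rw [h2]
  exact (measurable_snd (measurableSet_inj N)).inter (hG N hB)

theorem measurable_cfg_of_inj {β : Type*} [MeasurableSpace β] {g : Finset Ph → β}
    {G : (N : ℕ) → (Fin N → Ph) → β} (hG : ∀ N, Measurable (G N))
    (h : ∀ N (Z : Fin N → Ph), Function.Injective Z → g (im Z) = G N Z) : Measurable g := by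
  have h1 : JMeas (fun (_ : Unit) w => g w) :=
    jmeas_of_inj (G := fun N p => G N p.2) (fun N => (hG N).comp measurable_snd)
      (fun N p hp => h N p.2 hp)
  exact h1.right ()

/-- The injective `n`-tuples of points of `w`. -/
noncomputable def tuples (n : ℕ) (w : Finset Ph) : Finset (Fin n → Ph) := by
  classical exact (Fintype.piFinset fun _ => w).filter Function.Injective

theorem mem_tuples {n : ℕ} {w : Finset Ph} {y : Fin n → Ph} :
    y ∈ tuples n w ↔ (∀ i, y i ∈ w) ∧ Function.Injective y := by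
  classical
  unfold tuples
  rw [Finset.mem_filter, Fintype.mem_piFinset]

theorem sum_tuples {M : Type*} [AddCommMonoid M] {n N : ℕ} {Z : Fin N → Ph}
    (hZ : Function.Injective Z) (f : (Fin n → Ph) → M) :
    ∑ y ∈ tuples n (im Z), f y = ∑ σ : Fin n ↪ Fin N, f fun k => Z (σ k) := by
  classical
  symm
  refine Finset.sum_bij (fun (σ : Fin n ↪ Fin N) _ => fun k => Z (σ k)) ?_ ?_ ?_ ?_
  · intro σ _
    rw [mem_tuples]
    exact ⟨fun i => mem_im.2 ⟨_, rfl⟩, hZ.comp σ.injective⟩
  · intro σ _ τ _ h
    ext k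
    exact congrArg _ (hZ (congrFun h k))
  · intro y hy
    rw [mem_tuples] at hy
    choose g hg using fun i => mem_im.1 (hy.1 i)
    refine ⟨⟨g, fun a b hab => hy.2 ?_⟩, Finset.mem_univ _, ?_⟩
    · rw [← hg a, ← hg b, hab]
    · funext k
      exact hg k
  · intro σ _
    rfl

/-- The set of indices that are not hit, enumerated. -/
theorem exists_compl_enum {n M : ℕ} (σ : Fin n ↪ Fin (M + n)) :
    ∃ e : Fin n ⊕ Fin M ≃ Fin (M + n), ∀ k, e (Sum.inl k) = σ k := by
  classical
  have hcard : Fintype.card {j : Fin (M + n) // j ∉ Set.range σ} = M := by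
    rw [Fintype.card_subtype_compl, Fintype.card_fin]
    have : Fintype.card {x // x ∈ Set.range σ} = n := by
      have := Set.card_range_of_injective σ.injective
      rw [Fintype.card_fin] at this
      exact this
    rw [this]; omega
  let e2 : Fin M ≃ {j : Fin (M + n) // j ∉ Set.range σ} := (Fintype.equivFinOfCardEq hcard).symm
  let e1 : Fin n ≃ {j : Fin (M + n) // j ∈ Set.range σ} := Equiv.ofInjective σ σ.injective
  refine ⟨(Equiv.sumCongr e1 e2).trans (Equiv.sumCompl fun j => j ∈ Set.range σ), fun k => ?_⟩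
  simp [e1, Equiv.sumCompl]

theorem im_sdiff_enum {n M : ℕ} {Z : Fin (M + n) → Ph} (hZ : Function.Injective Z)
    {σ : Fin n ↪ Fin (M + n)} {e : Fin n ⊕ Fin M ≃ Fin (M + n)}
    (he : ∀ k, e (Sum.inl k) = σ k) :
    (im Z \ im fun k => Z (σ k)) = im fun j => Z (e (Sum.inr j)) := by
  ext z
  simp only [Finset.mem_sdiff, mem_im, not_exists]
  constructor
  · rintro ⟨⟨i, rfl⟩, h⟩
    obtain ⟨s, rfl⟩ := e.surjective i
    rcases s with k | j
    · exact absurd (congrArg Z (he k).symm) (h k)
    · exact ⟨j, rfl⟩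
  · rintro ⟨j, rfl⟩
    refine ⟨⟨_, rfl⟩, fun k hk => ?_⟩
    rw [← he k] at hk
    simpa using e.injective (hZ hk)

/-- The sum over tuples is jointly measurable. -/
theorem jmeas_sum_tuples {α : Type*} [MeasurableSpace α] {n : ℕ}
    {F : (α × (Fin n → Ph)) → Finset Ph → ℝ≥0∞} (hF : JMeas F) :
    JMeas fun (a : α) (w : Finset Ph) => ∑ y ∈ tuples n w, F (a, y) (w \ im y) := by
  classical
  -- enumeration for each `N`
  refine jmeas_of_inj (G := fun N p => ∑ σ : Fin n ↪ Fin N,
    (if h : n ≤ N then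
      F (p.1, fun k => p.2 (σ k)) (im fun j : Fin (N - n) =>
        p.2 (Fin.cast (by omega) ((exists_compl_enum
          (σ.trans (Fin.castOrderIso (show N = N - n + n by omega)).toEquiv.toEmbedding)).choose
            (Sum.inr j))))
      else 0)) ?_ ?_
  · intro N
    refine Finset.measurable_sum _ fun σ _ => ?_
    by_cases h : n ≤ N
    · simp only [h, dif_pos]
      have := hF (N - n)
      exact this.comp (((measurable_fst.prodMk (by fun_prop))).prodMk (by fun_prop))
    · simp only [h, not_false_eq_true, dif_neg]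
      exact measurable_const
  · intro N p hp
    rw [sum_tuples hp]
    refine Finset.sum_congr rfl fun σ _ => ?_
    have hn : n ≤ N := by
      have := Fintype.card_le_of_embedding σ
      rwa [Fintype.card_fin, Fintype.card_fin] at this
    rw [dif_pos hn]
    congr 1
    have hN : N = N - n + n := by omega
    set σ' : Fin n ↪ Fin (N - n + n) :=
      σ.trans (Fin.castOrderIso (show N = N - n + n by omega)).toEquiv.toEmbedding with hσ'
    have he := (exists_compl_enum σ').choose_spec
    set e := (exists_compl_enum σ').choose with hedef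
    have hZ' : Function.Injective fun i : Fin (N - n + n) => p.2 (Fin.cast hN.symm i) :=
      hp.comp (Fin.cast_injective _)
    have h1 := im_sdiff_enum hZ' he
    have h2 : (im fun i : Fin (N - n + n) => p.2 (Fin.cast hN.symm i)) = im p.2 := by
      ext z
      simp only [mem_im]
      constructor
      · rintro ⟨i, rfl⟩; exact ⟨_, rfl⟩
      · rintro ⟨i, rfl⟩; exact ⟨Fin.cast hN i, by simp⟩
    have h3 : (fun k => p.2 (Fin.cast hN.symm (σ' k))) = fun k => p.2 (σ k) := by
      funext k
      simp [hσ']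
    rw [h2, h3] at h1
    exact h1

variable (f₀ : Ph → ℝ) (ε : ℝ)

theorem gsum_congr {g g' : Finset Ph → ℝ≥0∞}
    (h : ∀ N, ∀ Z ∈ excl ε N, g (im Z) = g' (im Z)) : gsum f₀ ε g = gsum f₀ ε g' := by
  unfold gsum
  refine tsum_congr fun N => ?_
  rw [setLIntegral_congr_fun (measurableSet_excl ε N) (h N)]

theorem injective_of_excl {ε : ℝ} (hε : 0 ≤ ε) {N : ℕ} {Z : Fin N → Ph} (hZ : Z ∈ excl ε N) :
    Function.Injective Z := by
  intro i j hij
  by_contra hne
  have := hZ i j hne
  rw [hij, sub_self, norm_zero] at this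
  linarith

open Classical in
/-- The GNZ identity. -/
theorem gnz [IsProbabilityMeasure (law f₀)] (hε : 0 ≤ ε) {n : ℕ}
    {F : (Fin n → Ph) → Finset Ph → ℝ≥0∞} (hF : JMeas F) :
    ∫⁻ w, ∑ y ∈ tuples n w, F y (w \ im y) ∂gc f₀ ε =
      ENNReal.ofReal (mu ε ^ n) * ∫⁻ y in excl ε n,
        ∫⁻ w, (if Compat ε y w then F y w else 0) ∂gc f₀ ε
          ∂(Measure.pi fun _ : Fin n => law f₀) := by
  have hF' : JMeas (fun (p : Unit × (Fin n → Ph)) w => F p.2 w) := fun M =>
    (hF M).comp ((measurable_snd.comp measurable_fst).prodMk measurable_snd)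
  have h1 := (jmeas_sum_tuples hF').right ()
  rw [lintegral_gc f₀ ε h1]
  have h2 : gsum f₀ ε (fun w => ∑ y ∈ tuples n w, F y (w \ im y)) =
      ∑' N : ℕ, ENNReal.ofReal (mu ε ^ N / (N.factorial : ℝ)) *
      ∫⁻ Z in excl ε N, ∑ σ : Fin n ↪ Fin N, F (fun k => Z (σ k)) (im Z \ im fun k => Z (σ k))
        ∂(Measure.pi fun _ : Fin N => law f₀) := by
    unfold gsum
    refine tsum_congr fun N => ?_
    congr 1
    refine setLIntegral_congr_fun (measurableSet_excl ε N) fun Z hZ => ?_
    exact sum_tuples (injective_of_excl hε hZ) _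
  simp only at h2 ⊢
  rw [h2, gnz_gsum f₀ ε hε hF, ← mul_assoc, mul_comm _ (ENNReal.ofReal (mu ε ^ n)), mul_assoc]
  congr 1
  have hmeasF : ∀ y : Fin n → Ph, Measurable fun w => if Compat ε y w then F y w else 0 := by
    intro y
    refine measurable_cfg.2 fun M => ?_
    have h3 : Measurable fun p : (Fin n → Ph) × (Fin M → Ph) =>
      if Compat ε p.1 (im p.2) then F p.1 (im p.2) else 0 :=
      Measurable.ite (measurableSet_compat ε) (hF M) measurable_const
    exact h3.comp (measurable_const.prodMk measurable_id)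
  simp_rw [lintegral_gc f₀ ε (hmeasF _)]
  rw [lintegral_const_mul' _ _ (ENNReal.inv_ne_top.2 (gsum_one_pos f₀ ε))]

/-- Upper bound without indicators. -/
theorem gnz_le [IsProbabilityMeasure (law f₀)] (hε : 0 ≤ ε) {n : ℕ}
    {F : (Fin n → Ph) → Finset Ph → ℝ≥0∞} (hF : JMeas F) :
    ∫⁻ w, ∑ y ∈ tuples n w, F y (w \ im y) ∂gc f₀ ε ≤
      ENNReal.ofReal (mu ε ^ n) * ∫⁻ y, ∫⁻ w, F y w ∂gc f₀ ε
        ∂(Measure.pi fun _ : Fin n => law f₀) := by
  classical
  rw [gnz f₀ ε hε hF]
  refine mul_le_mul_right ?_ _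
  refine (setLIntegral_le_lintegral _ _).trans (lintegral_mono fun y => lintegral_mono fun w => ?_)
  split_ifs
  · exact le_rfl
  · exact zero_le

end Vale.Agent.P119.Gas
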